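import Vale.Agent.P344.R2.H288.Tr

/-!
# A cheaper program for four families of sources

`y[a,b,c,d] += u[b,c,d] + v[a,c,d] + w[a,b,d] + x[a,b,c]`, for `a, b, c` in `Fin h × Bool` and
`d` in `Fin m`, with about `31 h^3 m` additions instead of `32 h^3 m`.
-/

set_option linter.unusedSectionVars false

namespace Vale.Agent.P344.R2.H288

open Matrix Vale.Agent.P344.R2.H715

/-! ### One way maps -/

section oneway

variable {V : Type} [Fintype V] [DecidableEq V]

/-- `N` leads from the cells outside `p` to the cells in `p`. -/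
def OneWay (p : V → Prop) (N : Matrix V V ℂ) : Prop := ∀ i j, N i j ≠ 0 → p i ∧ ¬ p j

theorem OneWay.mul {p : V → Prop} {N N' : Matrix V V ℂ} (h : OneWay p N) (h' : OneWay p N') :
    N * N' = 0 := by
  ext i j
  rw [Matrix.mul_apply, Matrix.zero_apply]
  refine Finset.sum_eq_zero fun k _ => ?_
  by_contra hne
  exact (h i k (left_ne_zero_of_mul hne)).2 (h' k j (right_ne_zero_of_mul hne)).1

theorem OneWay.zero {p : V → Prop} : OneWay p (0 : Matrix V V ℂ) := by
  intro i j h
  simp at h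

theorem OneWay.add {p : V → Prop} {N N' : Matrix V V ℂ} (h : OneWay p N) (h' : OneWay p N') :
    OneWay p (N + N') := by
  intro i j hij
  by_cases h0 : N i j = 0
  · refine h' i j fun h1 => hij ?_
    rw [Matrix.add_apply, h0, h1, add_zero]
  · exact h i j h0

theorem OneWay.neg {p : V → Prop} {N : Matrix V V ℂ} (h : OneWay p N) : OneWay p (-N) := by
  intro i j hij
  refine h i j fun h1 => hij ?_
  rw [Matrix.neg_apply, h1, neg_zero]

theorem OneWay.sub {p : V → Prop} {N N' : Matrix V V ℂ} (h : OneWay p N) (h' : OneWay p N') :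
    OneWay p (N - N') := by
  rw [sub_eq_add_neg]
  exact h.add h'.neg

theorem OneWay.sum {p : V → Prop} {K : Type} (S : Finset K) (N : K → Matrix V V ℂ)
    (h : ∀ k, OneWay p (N k)) : OneWay p (∑ k ∈ S, N k) := by
  classical
  induction S using Finset.induction_on with
  | empty => rw [Finset.sum_empty]; exact OneWay.zero
  | insert a S ha ih =>
    rw [Finset.sum_insert ha]
    exact (h a).add ih

theorem OneWay.tr {p : V → Prop} {K : Type} [Fintype K] {t s : K → V} (ht : ∀ k, p (t k))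
    (hs : ∀ k, ¬ p (s k)) : OneWay p (tr t s) := by
  refine OneWay.sum _ _ fun k i j hij => ?_
  rw [Matrix.single_apply] at hij
  split_ifs at hij with h
  · rw [← h.1, ← h.2]
    exact ⟨ht k, hs k⟩
  · exact absurd rfl hij

variable [Nonempty V]

theorem OneWay.cc_add {p : V → Prop} {N N' : Matrix V V ℂ} (h : OneWay p N) (h' : OneWay p N') :
    cc (1 + (N + N')) ≤ cc (1 + N) + cc (1 + N') := by
  have h1 : 1 + (N + N') = (1 + N) * (1 + N') := by
    rw [mul_add, mul_one, add_mul, one_mul, h.mul h']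
    abel
  rw [h1]
  exact cc_mul_le _ _

theorem OneWay.cc_sum {p : V → Prop} {K : Type} (S : Finset K) (N : K → Matrix V V ℂ)
    (h : ∀ k, OneWay p (N k)) {x : ℝ} (hx : ∀ k, cc (1 + N k) ≤ x) :
    cc (1 + ∑ k ∈ S, N k) ≤ S.card * x := by
  classical
  induction S using Finset.induction_on with
  | empty => simp [cc_mono (IsMono.one (ι := V))]
  | insert a S ha ih =>
    rw [Finset.sum_insert ha, Finset.card_insert_of_notMem ha]
    refine ((h a).cc_add (OneWay.sum S N h)).trans ?_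
    have := hx a
    push_cast
    linarith

end oneway

/-! ### The cells -/

/-- The cells of the program. -/
inductive Wr (α D : Type) : Type
  | u (b c : α) (d : D) : Wr α D
  | v (a c : α) (d : D) : Wr α D
  | w (a b : α) (d : D) : Wr α D
  | x (a b c : α) : Wr α D
  | y (a b c : α) (d : D) : Wr α D

section prog

variable {V : Type} [Fintype V] [DecidableEq V] [Nonempty V] {h m : ℕ}
  (ω : Wr (Fin h × Bool) (Fin m) → V)

/-- Blocks. -/
abbrev T (h : ℕ) := Fin h × Fin h × Fin h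

def u₂ (i : Bool × Bool) (d : Fin m) (k : Fin h × Fin h) : V := ω (.u (k.1, i.1) (k.2, i.2) d)
def v₂ (i : Bool × Bool) (d : Fin m) (k : Fin h × Fin h) : V := ω (.v (k.1, i.1) (k.2, i.2) d)
def w₂ (i : Bool × Bool) (d : Fin m) (k : Fin h × Fin h) : V := ω (.w (k.1, i.1) (k.2, i.2) d)
def x₃ (i : Bool × Bool × Bool) (k : T h) : V :=
  ω (.x (k.1, i.1) (k.2.1, i.2.1) (k.2.2, i.2.2))
def y₃ (i : Bool × Bool × Bool) (d : Fin m) (k : T h) : V :=
  ω (.y (k.1, i.1) (k.2.1, i.2.1) (k.2.2, i.2.2) d)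

/-- `t += u_i`. -/
def tu (t : T h → V) (i : Bool × Bool) (d : Fin m) : Matrix V V ℂ :=
  tr t fun k => u₂ ω i d (k.2.1, k.2.2)
def tv (t : T h → V) (i : Bool × Bool) (d : Fin m) : Matrix V V ℂ :=
  tr t fun k => v₂ ω i d (k.1, k.2.2)
def tw (t : T h → V) (i : Bool × Bool) (d : Fin m) : Matrix V V ℂ :=
  tr t fun k => w₂ ω i d (k.1, k.2.1)

/-- The walkers. -/
def zz : T h → V := x₃ ω (false, false, false)

variable {ω}

theorem u₂_inj (hω : Function.Injective ω) (i : Bool × Bool) (d : Fin m) :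
    Function.Injective (u₂ ω i d) := by
  rintro ⟨a, b⟩ ⟨a', b'⟩ h
  have := hω h
  simp at this
  simp [this]

theorem v₂_inj (hω : Function.Injective ω) (i : Bool × Bool) (d : Fin m) :
    Function.Injective (v₂ ω i d) := by
  rintro ⟨a, b⟩ ⟨a', b'⟩ h
  have := hω h
  simp at this
  simp [this]

theorem w₂_inj (hω : Function.Injective ω) (i : Bool × Bool) (d : Fin m) :
    Function.Injective (w₂ ω i d) := by
  rintro ⟨a, b⟩ ⟨a', b'⟩ h
  have := hω h
  simp at this
  simp [this]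

theorem x₃_inj (hω : Function.Injective ω) (i : Bool × Bool × Bool) :
    Function.Injective (x₃ ω i) := by
  rintro ⟨a, b, c⟩ ⟨a', b', c'⟩ h
  have := hω h
  simp at this
  simp [this]

theorem u₂_ne (hω : Function.Injective ω) {i j : Bool × Bool} (hij : i ≠ j) (d d' : Fin m)
    (k k' : Fin h × Fin h) : u₂ ω i d k ≠ u₂ ω j d' k' := by
  intro h
  have := hω h
  simp at this
  exact hij (Prod.ext this.1.2 this.2.1.2)

theorem v₂_ne (hω : Function.Injective ω) {i j : Bool × Bool} (hij : i ≠ j) (d d' : Fin m)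
    (k k' : Fin h × Fin h) : v₂ ω i d k ≠ v₂ ω j d' k' := by
  intro h
  have := hω h
  simp at this
  exact hij (Prod.ext this.1.2 this.2.1.2)

theorem w₂_ne (hω : Function.Injective ω) {i j : Bool × Bool} (hij : i ≠ j) (d d' : Fin m)
    (k k' : Fin h × Fin h) : w₂ ω i d k ≠ w₂ ω j d' k' := by
  intro h
  have := hω h
  simp at this
  exact hij (Prod.ext this.1.2 this.2.1.2)

theorem x₃_ne (hω : Function.Injective ω) {i j : Bool × Bool × Bool} (hij : i ≠ j)
    (k k' : T h) : x₃ ω i k ≠ x₃ ω j k' := by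
  intro h
  have := hω h
  simp at this
  exact hij (Prod.ext this.1.2 (Prod.ext this.2.1.2 this.2.2.2))

/-- The cells `y`. -/
def isY (ω : Wr (Fin h × Bool) (Fin m) → V) (z : V) : Prop :=
  ∃ a b c d, z = ω (.y a b c d)

/-- The cells `x`. -/
def isX (ω : Wr (Fin h × Bool) (Fin m) → V) (z : V) : Prop :=
  ∃ a b c, z = ω (.x a b c)

/-- Adding differences of `u`, `v`, `w`. -/
theorem cc_du (hω : Function.Injective ω) (t : T h → V)
    (h1 : ∀ k, isX ω (t k) ∨ isY ω (t k)) {i j : Bool × Bool} (hij : i ≠ j) (d d' : Fin m) :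
    cc (1 + (tu ω t i d - tu ω t j d')) ≤ ((h : ℝ) ^ 3 + 2 * (h : ℝ) ^ 2) * cc E := by
  have h2 := cc_diff t (u₂ ω i d) (u₂ ω j d') (fun k : T h => (k.2.1, k.2.2)) (u₂_inj hω i d)
    (fun k k' h => by
      rcases h1 k with ⟨a, b, c, e⟩ | ⟨a, b, c, d, e⟩
      · rw [e] at h; cases hω h
      · rw [e] at h; cases hω h)
    (fun k k' h => by
      rcases h1 k with ⟨a, b, c, e⟩ | ⟨a, b, c, d, e⟩
      · rw [e] at h; cases hω h
      · rw [e] at h; cases hω h)
    (u₂_ne hω hij d d')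
  refine h2.trans (le_of_eq ?_)
  simp only [Fintype.card_prod, Fintype.card_fin]
  push_cast
  ring

theorem cc_dv (hω : Function.Injective ω) (t : T h → V)
    (h1 : ∀ k, isX ω (t k) ∨ isY ω (t k)) {i j : Bool × Bool} (hij : i ≠ j) (d d' : Fin m) :
    cc (1 + (tv ω t i d - tv ω t j d')) ≤ ((h : ℝ) ^ 3 + 2 * (h : ℝ) ^ 2) * cc E := by
  have h2 := cc_diff t (v₂ ω i d) (v₂ ω j d') (fun k : T h => (k.1, k.2.2)) (v₂_inj hω i d)
    (fun k k' h => by
      rcases h1 k with ⟨a, b, c, e⟩ | ⟨a, b, c, d, e⟩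
      · rw [e] at h; cases hω h
      · rw [e] at h; cases hω h)
    (fun k k' h => by
      rcases h1 k with ⟨a, b, c, e⟩ | ⟨a, b, c, d, e⟩
      · rw [e] at h; cases hω h
      · rw [e] at h; cases hω h)
    (v₂_ne hω hij d d')
  refine h2.trans (le_of_eq ?_)
  simp only [Fintype.card_prod, Fintype.card_fin]
  push_cast
  ring

theorem cc_dw (hω : Function.Injective ω) (t : T h → V)
    (h1 : ∀ k, isX ω (t k) ∨ isY ω (t k)) {i j : Bool × Bool} (hij : i ≠ j) (d d' : Fin m) :
    cc (1 + (tw ω t i d - tw ω t j d')) ≤ ((h : ℝ) ^ 3 + 2 * (h : ℝ) ^ 2) * cc E := by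
  have h2 := cc_diff t (w₂ ω i d) (w₂ ω j d') (fun k : T h => (k.1, k.2.1)) (w₂_inj hω i d)
    (fun k k' h => by
      rcases h1 k with ⟨a, b, c, e⟩ | ⟨a, b, c, d, e⟩
      · rw [e] at h; cases hω h
      · rw [e] at h; cases hω h)
    (fun k k' h => by
      rcases h1 k with ⟨a, b, c, e⟩ | ⟨a, b, c, d, e⟩
      · rw [e] at h; cases hω h
      · rw [e] at h; cases hω h)
    (w₂_ne hω hij d d')
  refine h2.trans (le_of_eq ?_)
  simp only [Fintype.card_prod, Fintype.card_fin]
  push_cast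
  ring

/-! ### One way facts -/

theorem zz_isX (k : T h) : isX ω (zz ω k) := ⟨_, _, _, rfl⟩

theorem y₃_isY (i : Bool × Bool × Bool) (d : Fin m) (k : T h) : isY ω (y₃ ω i d k) :=
  ⟨_, _, _, _, rfl⟩

theorem x₃_not_isY (hω : Function.Injective ω) (i : Bool × Bool × Bool) (k : T h) :
    ¬ isY ω (x₃ ω i k) := by
  rintro ⟨a, b, c, d, e⟩
  cases hω e

theorem u₂_not_isY (hω : Function.Injective ω) (i : Bool × Bool) (d : Fin m)
    (k : Fin h × Fin h) : ¬ isY ω (u₂ ω i d k) := by
  rintro ⟨a, b, c, d, e⟩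
  cases hω e

theorem v₂_not_isY (hω : Function.Injective ω) (i : Bool × Bool) (d : Fin m)
    (k : Fin h × Fin h) : ¬ isY ω (v₂ ω i d k) := by
  rintro ⟨a, b, c, d, e⟩
  cases hω e

theorem w₂_not_isY (hω : Function.Injective ω) (i : Bool × Bool) (d : Fin m)
    (k : Fin h × Fin h) : ¬ isY ω (w₂ ω i d k) := by
  rintro ⟨a, b, c, d, e⟩
  cases hω e

theorem u₂_not_isX (hω : Function.Injective ω) (i : Bool × Bool) (d : Fin m)
    (k : Fin h × Fin h) : ¬ isX ω (u₂ ω i d k) := by
  rintro ⟨a, b, c, e⟩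
  cases hω e

theorem v₂_not_isX (hω : Function.Injective ω) (i : Bool × Bool) (d : Fin m)
    (k : Fin h × Fin h) : ¬ isX ω (v₂ ω i d k) := by
  rintro ⟨a, b, c, e⟩
  cases hω e

theorem w₂_not_isX (hω : Function.Injective ω) (i : Bool × Bool) (d : Fin m)
    (k : Fin h × Fin h) : ¬ isX ω (w₂ ω i d k) := by
  rintro ⟨a, b, c, e⟩
  cases hω e

/-! ### The walk -/

/-- The positions of the walker. -/
def pos (ω : Wr (Fin h × Bool) (Fin m) → V) : ℕ → Fin m → Matrix V V ℂ
  | 0, d => tu ω (zz ω) (false, false) d + tv ω (zz ω) (false, false) d +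
      tw ω (zz ω) (false, true) d
  | 1, d => tu ω (zz ω) (false, false) d + tv ω (zz ω) (false, true) d +
      tw ω (zz ω) (false, true) d
  | 2, d => tu ω (zz ω) (false, false) d + tv ω (zz ω) (false, true) d +
      tw ω (zz ω) (true, false) d
  | _, d => tu ω (zz ω) (false, true) d + tv ω (zz ω) (false, true) d +
      tw ω (zz ω) (true, false) d

/-- `y_i += walker`. -/
def yz (ω : Wr (Fin h × Bool) (Fin m) → V) (i : Bool × Bool × Bool) (d : Fin m) :
    Matrix V V ℂ := tr (y₃ ω i d) (zz ω)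

/-- The services. -/
def ser (ω : Wr (Fin h × Bool) (Fin m) → V) : ℕ → Fin m → Matrix V V ℂ
  | 0, d => yz ω (false, true, false) d + yz ω (false, false, false) d
  | 1, d => yz ω (false, true, true) d
  | 2, d => yz ω (true, false, false) d
  | _, d => yz ω (true, false, true) d + yz ω (false, false, true) d

theorem oneWay_tu_z (hω : Function.Injective ω) (i : Bool × Bool) (d : Fin m) :
    OneWay (isX ω) (tu ω (zz ω) i d) :=
  OneWay.tr zz_isX fun k => u₂_not_isX hω _ _ _

theorem oneWay_tv_z (hω : Function.Injective ω) (i : Bool × Bool) (d : Fin m) :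
    OneWay (isX ω) (tv ω (zz ω) i d) :=
  OneWay.tr zz_isX fun k => v₂_not_isX hω _ _ _

theorem oneWay_tw_z (hω : Function.Injective ω) (i : Bool × Bool) (d : Fin m) :
    OneWay (isX ω) (tw ω (zz ω) i d) :=
  OneWay.tr zz_isX fun k => w₂_not_isX hω _ _ _

theorem oneWay_pos (hω : Function.Injective ω) (r : ℕ) (d : Fin m) :
    OneWay (isX ω) (pos ω r d) := by
  rcases r with _ | _ | _ | r <;>
    exact ((oneWay_tu_z hω _ _).add (oneWay_tv_z hω _ _)).add (oneWay_tw_z hω _ _)

theorem oneWay_yz (hω : Function.Injective ω) (i : Bool × Bool × Bool) (d : Fin m) :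
    OneWay (isY ω) (yz ω i d) :=
  OneWay.tr (y₃_isY i d) fun k => x₃_not_isY hω _ _

theorem oneWay_ser (hω : Function.Injective ω) (r : ℕ) (d : Fin m) :
    OneWay (isY ω) (ser ω r d) := by
  rcases r with _ | _ | _ | r
  · exact (oneWay_yz hω _ _).add (oneWay_yz hω _ _)
  · exact oneWay_yz hω _ _
  · exact oneWay_yz hω _ _
  · exact (oneWay_yz hω _ _).add (oneWay_yz hω _ _)

/-- The walker is not a target of the services. -/
theorem pos_mul_ser (hω : Function.Injective ω) (r s : ℕ) (d e : Fin m) :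
    pos ω r d * ser ω s e = 0 := by
  have h1 : ∀ i : Bool × Bool × Bool, pos ω r d * yz ω i e = 0 := by
    intro i
    have hu : ∀ j, tu ω (zz ω) j d * yz ω i e = 0 := fun j =>
      tr_mul_eq_zero _ _ _ _ fun k k' hk => by cases hω hk
    have hv : ∀ j, tv ω (zz ω) j d * yz ω i e = 0 := fun j =>
      tr_mul_eq_zero _ _ _ _ fun k k' hk => by cases hω hk
    have hw : ∀ j, tw ω (zz ω) j d * yz ω i e = 0 := fun j =>
      tr_mul_eq_zero _ _ _ _ fun k k' hk => by cases hω hk
    rcases r with _ | _ | _ | r <;>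
      (simp only [pos]; rw [add_mul, add_mul, hu, hv, hw, add_zero, add_zero])
  rcases s with _ | _ | _ | s
  · simp only [ser]; rw [mul_add, h1, h1, add_zero]
  · simp only [ser]; rw [h1]
  · simp only [ser]; rw [h1]
  · simp only [ser]; rw [mul_add, h1, h1, add_zero]

/-- `y_i += u_j` through the walker. -/
theorem yz_mul_tu (hω : Function.Injective ω) (i : Bool × Bool × Bool) (j : Bool × Bool)
    (d e : Fin m) : yz ω i d * tu ω (zz ω) j e = tu ω (y₃ ω i d) j e :=
  tr_mul_tr (y₃ ω i d) (zz ω) (fun k => k) _ (x₃_inj hω _)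

theorem yz_mul_tv (hω : Function.Injective ω) (i : Bool × Bool × Bool) (j : Bool × Bool)
    (d e : Fin m) : yz ω i d * tv ω (zz ω) j e = tv ω (y₃ ω i d) j e :=
  tr_mul_tr (y₃ ω i d) (zz ω) (fun k => k) _ (x₃_inj hω _)

theorem yz_mul_tw (hω : Function.Injective ω) (i : Bool × Bool × Bool) (j : Bool × Bool)
    (d e : Fin m) : yz ω i d * tw ω (zz ω) j e = tw ω (y₃ ω i d) j e :=
  tr_mul_tr (y₃ ω i d) (zz ω) (fun k => k) _ (x₃_inj hω _)

theorem cc_yz (hω : Function.Injective ω) (i : Bool × Bool × Bool) (d : Fin m) :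
    cc (1 + yz ω i d) ≤ (h : ℝ) ^ 3 * cc E := by
  have h1 := cc_tr (y₃ ω i d) (zz ω) fun k k' hk => by cases hω hk
  refine h1.trans (le_of_eq ?_)
  simp only [Fintype.card_prod, Fintype.card_fin]
  push_cast
  ring

/-- A batch of plain additions. -/
theorem cc_plain (t s : T h → V) (hts : ∀ k k', t k ≠ s k') :
    cc (1 + tr t s) ≤ (h : ℝ) ^ 3 * cc E := by
  have h1 := cc_tr t s hts
  refine h1.trans (le_of_eq ?_)
  simp only [Fintype.card_prod, Fintype.card_fin]
  push_cast
  ring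

theorem cc_plain_sub (t s : T h → V) (hts : ∀ k k', t k ≠ s k') :
    cc (1 - tr t s) ≤ (h : ℝ) ^ 3 * cc E := by
  have h1 := cc_sub_tr t s hts
  refine h1.trans (le_of_eq ?_)
  simp only [Fintype.card_prod, Fintype.card_fin]
  push_cast
  ring

/-- The cost of a difference. -/
noncomputable def δ₁ (h : ℕ) : ℝ := ((h : ℝ) ^ 3 + 2 * (h : ℝ) ^ 2) * cc E

theorem δ₁_nonneg (h : ℕ) : 0 ≤ δ₁ h := mul_nonneg (by positivity) cc_E_nonneg

theorem zz_or (k : T h) : isX ω (zz ω k) ∨ isY ω (zz ω k) := Or.inl (zz_isX k)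

theorem y_or (i : Bool × Bool × Bool) (d : Fin m) (k : T h) :
    isX ω (y₃ ω i d k) ∨ isY ω (y₃ ω i d k) := Or.inr (y₃_isY i d k)

/-- The time. -/
def tm (hm : 0 < m) (q : ℕ) : Fin m := ⟨min q (m - 1), by omega⟩

theorem tm_of_lt (hm : 0 < m) (d : Fin m) : tm hm (d : ℕ) = d := by
  ext
  simp only [tm]
  omega

/-- Positions as a sequence. -/
def PP (ω : Wr (Fin h × Bool) (Fin m) → V) (hm : 0 < m) (k : ℕ) : Matrix V V ℂ :=
  pos ω (k % 4) (tm hm (k / 4))

def RR (ω : Wr (Fin h × Bool) (Fin m) → V) (hm : 0 < m) (k : ℕ) : Matrix V V ℂ :=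
  ser ω (k % 4) (tm hm (k / 4))

theorem PP_eq (hm : 0 < m) (q r : ℕ) (hr : r < 4) :
    PP ω hm (4 * q + r) = pos ω r (tm hm q) := by
  unfold PP
  rw [show (4 * q + r) % 4 = r by omega, show (4 * q + r) / 4 = q by omega]

theorem RR_eq (hm : 0 < m) (q r : ℕ) (hr : r < 4) :
    RR ω hm (4 * q + r) = ser ω r (tm hm q) := by
  unfold RR
  rw [show (4 * q + r) % 4 = r by omega, show (4 * q + r) / 4 = q by omega]

theorem cc_step (hω : Function.Injective ω) (hm : 0 < m) (k : ℕ) :
    cc (1 + (PP ω hm (k + 1) - PP ω hm k)) ≤ if k % 4 = 3 then 3 * δ₁ h else δ₁ h := by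
  obtain ⟨q, r, hr, rfl⟩ : ∃ q r, r < 4 ∧ k = 4 * q + r :=
    ⟨k / 4, k % 4, Nat.mod_lt _ (by norm_num), by omega⟩
  rw [show (4 * q + r) % 4 = r by omega, PP_eq hm q r hr]
  interval_cases r
  · rw [if_neg (by norm_num), show 4 * q + 0 + 1 = 4 * q + 1 by ring, PP_eq hm q 1 (by norm_num)]
    have h1 : pos ω 1 (tm hm q) - pos ω 0 (tm hm q) =
        tv ω (zz ω) (false, true) (tm hm q) - tv ω (zz ω) (false, false) (tm hm q) := by
      simp only [pos]
      abel
    rw [h1]
    exact cc_dv hω (zz ω) zz_or (by decide) _ _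
  · rw [if_neg (by norm_num), show 4 * q + 1 + 1 = 4 * q + 2 by ring, PP_eq hm q 2 (by norm_num)]
    have h1 : pos ω 2 (tm hm q) - pos ω 1 (tm hm q) =
        tw ω (zz ω) (true, false) (tm hm q) - tw ω (zz ω) (false, true) (tm hm q) := by
      simp only [pos]
      abel
    rw [h1]
    exact cc_dw hω (zz ω) zz_or (by decide) _ _
  · rw [if_neg (by norm_num), show 4 * q + 2 + 1 = 4 * q + 3 by ring, PP_eq hm q 3 (by norm_num)]
    have h1 : pos ω 3 (tm hm q) - pos ω 2 (tm hm q) =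
        tu ω (zz ω) (false, true) (tm hm q) - tu ω (zz ω) (false, false) (tm hm q) := by
      simp only [pos]
      abel
    rw [h1]
    exact cc_du hω (zz ω) zz_or (by decide) _ _
  · rw [if_pos rfl, show 4 * q + 3 + 1 = 4 * (q + 1) + 0 by ring,
      PP_eq hm (q + 1) 0 (by norm_num)]
    have h1 : pos ω 0 (tm hm (q + 1)) - pos ω 3 (tm hm q) =
        ((tu ω (zz ω) (false, false) (tm hm (q + 1)) - tu ω (zz ω) (false, true) (tm hm q)) +
        (tv ω (zz ω) (false, false) (tm hm (q + 1)) - tv ω (zz ω) (false, true) (tm hm q))) +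
        (tw ω (zz ω) (false, true) (tm hm (q + 1)) - tw ω (zz ω) (true, false) (tm hm q)) := by
      simp only [pos]
      abel
    rw [h1]
    have o1 := (oneWay_tu_z hω (false, false) (tm hm (q + 1))).sub
      (oneWay_tu_z hω (false, true) (tm hm q))
    have o2 := (oneWay_tv_z hω (false, false) (tm hm (q + 1))).sub
      (oneWay_tv_z hω (false, true) (tm hm q))
    have o3 := (oneWay_tw_z hω (false, true) (tm hm (q + 1))).sub
      (oneWay_tw_z hω (true, false) (tm hm q))
    have c0 := (o1.add o2).cc_add o3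
    have c1 := o1.cc_add o2
    have c2 : cc (1 + (tu ω (zz ω) (false, false) (tm hm (q + 1)) -
        tu ω (zz ω) (false, true) (tm hm q))) ≤ δ₁ h := cc_du hω (zz ω) zz_or (by decide) _ _
    have c3 : cc (1 + (tv ω (zz ω) (false, false) (tm hm (q + 1)) -
        tv ω (zz ω) (false, true) (tm hm q))) ≤ δ₁ h := cc_dv hω (zz ω) zz_or (by decide) _ _
    have c4 : cc (1 + (tw ω (zz ω) (false, true) (tm hm (q + 1)) -
        tw ω (zz ω) (true, false) (tm hm q))) ≤ δ₁ h := cc_dw hω (zz ω) zz_or (by decide) _ _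
    linarith

theorem cc_ser (hω : Function.Injective ω) (hm : 0 < m) (k : ℕ) :
    cc (1 + RR ω hm k) ≤ if k % 4 = 0 ∨ k % 4 = 3 then 2 * ((h : ℝ) ^ 3 * cc E)
      else (h : ℝ) ^ 3 * cc E := by
  obtain ⟨q, r, hr, rfl⟩ : ∃ q r, r < 4 ∧ k = 4 * q + r :=
    ⟨k / 4, k % 4, Nat.mod_lt _ (by norm_num), by omega⟩
  rw [show (4 * q + r) % 4 = r by omega, RR_eq hm q r hr]
  interval_cases r
  · rw [if_pos (by norm_num)]
    simp only [ser]
    have c0 := (oneWay_yz hω (false, true, false) (tm hm q)).cc_add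
      (oneWay_yz hω (false, false, false) (tm hm q))
    have c1 := cc_yz hω (false, true, false) (tm hm q)
    have c2 := cc_yz hω (false, false, false) (tm hm q)
    linarith
  · rw [if_neg (by norm_num)]
    exact cc_yz hω _ _
  · rw [if_neg (by norm_num)]
    exact cc_yz hω _ _
  · rw [if_pos (by norm_num)]
    simp only [ser]
    have c0 := (oneWay_yz hω (true, false, true) (tm hm q)).cc_add
      (oneWay_yz hω (false, false, true) (tm hm q))
    have c1 := cc_yz hω (true, false, true) (tm hm q)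
    have c2 := cc_yz hω (false, false, true) (tm hm q)
    linarith

theorem sum_four {M : Type} [AddCommMonoid M] (f : ℕ → M) (m : ℕ) :
    ∑ k ∈ Finset.range (4 * m), f k = ∑ q ∈ Finset.range m,
      (f (4 * q) + f (4 * q + 1) + f (4 * q + 2) + f (4 * q + 3)) := by
  induction m with
  | zero => simp
  | succ m ih =>
    rw [show 4 * (m + 1) = 4 * m + 1 + 1 + 1 + 1 by ring, Finset.sum_range_succ,
      Finset.sum_range_succ, Finset.sum_range_succ, Finset.sum_range_succ, ih,
      Finset.sum_range_succ]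
    simp only [add_assoc]

theorem cc_first (hω : Function.Injective ω) (hm : 0 < m) :
    cc (1 + PP ω hm 0) ≤ 3 * ((h : ℝ) ^ 3 * cc E) := by
  have h0 := PP_eq (ω := ω) hm 0 0 (by norm_num)
  rw [show 4 * 0 + 0 = 0 by norm_num] at h0
  rw [h0]
  simp only [pos]
  have o1 := oneWay_tu_z hω (false, false) (tm hm 0)
  have o2 := oneWay_tv_z hω (false, false) (tm hm 0)
  have o3 := oneWay_tw_z hω (false, true) (tm hm 0)
  have c0 := (o1.add o2).cc_add o3
  have c1 := o1.cc_add o2
  have c2 : cc (1 + tu ω (zz ω) (false, false) (tm hm 0)) ≤ (h : ℝ) ^ 3 * cc E :=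
    cc_plain _ _ fun k k' hk => by cases hω hk
  have c3 : cc (1 + tv ω (zz ω) (false, false) (tm hm 0)) ≤ (h : ℝ) ^ 3 * cc E :=
    cc_plain _ _ fun k k' hk => by cases hω hk
  have c4 : cc (1 + tw ω (zz ω) (false, true) (tm hm 0)) ≤ (h : ℝ) ^ 3 * cc E :=
    cc_plain _ _ fun k k' hk => by cases hω hk
  linarith

/-- The end of the walk. -/
theorem cc_last (hω : Function.Injective ω) (d : Fin m) :
    cc (1 - pos ω 3 d) ≤ 3 * ((h : ℝ) ^ 3 * cc E) := by
  simp only [pos]
  have o1 := oneWay_tu_z hω (false, true) d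
  have o2 := oneWay_tv_z hω (false, true) d
  have o3 := oneWay_tw_z hω (true, false) d
  have c0 := (o1.neg.add o2.neg).cc_add o3.neg
  have c1 := o1.neg.cc_add o2.neg
  have c2 : cc (1 - tu ω (zz ω) (false, true) d) ≤ (h : ℝ) ^ 3 * cc E :=
    cc_plain_sub _ _ fun k k' hk => by cases hω hk
  have c3 : cc (1 - tv ω (zz ω) (false, true) d) ≤ (h : ℝ) ^ 3 * cc E :=
    cc_plain_sub _ _ fun k k' hk => by cases hω hk
  have c4 : cc (1 - tw ω (zz ω) (true, false) d) ≤ (h : ℝ) ^ 3 * cc E :=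
    cc_plain_sub _ _ fun k k' hk => by cases hω hk
  rw [sub_eq_add_neg] at c2 c3 c4
  have e : (1 : Matrix V V ℂ) - (tu ω (zz ω) (false, true) d + tv ω (zz ω) (false, true) d +
      tw ω (zz ω) (true, false) d) = 1 + (-tu ω (zz ω) (false, true) d +
      -tv ω (zz ω) (false, true) d + -tw ω (zz ω) (true, false) d) := by abel
  rw [e]
  linarith

end prog

end Vale.Agent.P344.R2.H288
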