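import Vale.Agent.P344.R2.H288.L4

/-!
# The cost of the four family map
-/

set_option linter.unusedSectionVars false

namespace Vale.Agent.P344.R2.H288

open Matrix Vale.Agent.P344.R2.H715

section total

variable {V : Type} [Fintype V] [DecidableEq V] [Nonempty V] {h m : ℕ}
  {ω : Wr (Fin h × Bool) (Fin m) → V}

/-- The walker part, at time `d`. -/
def wk (ω : Wr (Fin h × Bool) (Fin m) → V) (d : Fin m) : Matrix V V ℂ :=
  (ser ω 0 d + ser ω 0 d * pos ω 0 d) + (ser ω 1 d + ser ω 1 d * pos ω 1 d) +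
    (ser ω 2 d + ser ω 2 d * pos ω 2 d) + (ser ω 3 d + ser ω 3 d * pos ω 3 d)

theorem cc_wk (hω : Function.Injective ω) (hm : 0 < m) :
    cc (1 + ∑ d : Fin m, wk ω d) ≤
      6 * ((h : ℝ) ^ 3 * cc E) + m * (6 * δ₁ h + 6 * ((h : ℝ) ^ 3 * cc E)) := by
  have h1 := walk (PP ω hm) (RR ω hm) (fun i j => (oneWay_pos hω _ _).mul (oneWay_pos hω _ _))
    (fun i j => (oneWay_ser hω _ _).mul (oneWay_ser hω _ _)) (fun i j => pos_mul_ser hω _ _ _ _)
    _ _ _ (cc_first hω hm) (cc_step hω hm) (cc_ser hω hm) (4 * m - 1)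
    (3 * ((h : ℝ) ^ 3 * cc E)) (by
      rw [show 4 * m - 1 = 4 * (m - 1) + 3 by omega, PP_eq hm _ 3 (by norm_num)]
      exact cc_last hω _)
  rw [show 4 * m - 1 + 1 = 4 * m by omega, sum_four, sum_four] at h1
  have h2 : ∑ q ∈ Finset.range m, ((RR ω hm (4 * q) + RR ω hm (4 * q) * PP ω hm (4 * q)) +
      (RR ω hm (4 * q + 1) + RR ω hm (4 * q + 1) * PP ω hm (4 * q + 1)) +
      (RR ω hm (4 * q + 2) + RR ω hm (4 * q + 2) * PP ω hm (4 * q + 2)) +
      (RR ω hm (4 * q + 3) + RR ω hm (4 * q + 3) * PP ω hm (4 * q + 3))) =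
      ∑ d : Fin m, wk ω d := by
    rw [Finset.sum_range]
    refine Finset.sum_congr rfl fun d _ => ?_
    have e0 : RR ω hm (4 * (d : ℕ)) = ser ω 0 d := by
      have := RR_eq (ω := ω) hm d 0 (by norm_num)
      rwa [add_zero, tm_of_lt] at this
    have e0' : PP ω hm (4 * (d : ℕ)) = pos ω 0 d := by
      have := PP_eq (ω := ω) hm d 0 (by norm_num)
      rwa [add_zero, tm_of_lt] at this
    rw [e0, e0', RR_eq hm _ 1 (by norm_num), RR_eq hm _ 2 (by norm_num),
      RR_eq hm _ 3 (by norm_num), PP_eq hm _ 1 (by norm_num), PP_eq hm _ 2 (by norm_num),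
      PP_eq hm _ 3 (by norm_num), tm_of_lt]
    rfl
  rw [h2] at h1
  refine h1.trans ?_
  have h3 : ∑ k ∈ Finset.range (4 * m - 1), (if k % 4 = 3 then 3 * δ₁ h else δ₁ h) ≤
      m * (6 * δ₁ h) := by
    have h4 : ∑ k ∈ Finset.range (4 * m - 1), (if k % 4 = 3 then 3 * δ₁ h else δ₁ h) ≤
        ∑ k ∈ Finset.range (4 * m), (if k % 4 = 3 then 3 * δ₁ h else δ₁ h) := by
      refine Finset.sum_le_sum_of_subset_of_nonneg ?_ fun k _ _ => ?_
      · intro k hk
        rw [Finset.mem_range] at hk ⊢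
        omega
      · have := δ₁_nonneg h
        split_ifs <;> linarith
    refine h4.trans (le_of_eq ?_)
    rw [sum_four]
    have h5 : ∀ q ∈ Finset.range m, ((if (4 * q) % 4 = 3 then 3 * δ₁ h else δ₁ h) +
        (if (4 * q + 1) % 4 = 3 then 3 * δ₁ h else δ₁ h) +
        (if (4 * q + 2) % 4 = 3 then 3 * δ₁ h else δ₁ h) +
        (if (4 * q + 3) % 4 = 3 then 3 * δ₁ h else δ₁ h)) = 6 * δ₁ h := by
      intro q _
      rw [if_neg (by omega), if_neg (by omega), if_neg (by omega), if_pos (by omega)]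
      ring
    rw [Finset.sum_congr rfl h5, Finset.sum_const, Finset.card_range, nsmul_eq_mul]
  have h6 : ∑ q ∈ Finset.range m, ((if (4 * q) % 4 = 0 ∨ (4 * q) % 4 = 3 then
        2 * ((h : ℝ) ^ 3 * cc E) else (h : ℝ) ^ 3 * cc E) +
      (if (4 * q + 1) % 4 = 0 ∨ (4 * q + 1) % 4 = 3 then
        2 * ((h : ℝ) ^ 3 * cc E) else (h : ℝ) ^ 3 * cc E) +
      (if (4 * q + 2) % 4 = 0 ∨ (4 * q + 2) % 4 = 3 then
        2 * ((h : ℝ) ^ 3 * cc E) else (h : ℝ) ^ 3 * cc E) +
      (if (4 * q + 3) % 4 = 0 ∨ (4 * q + 3) % 4 = 3 then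
        2 * ((h : ℝ) ^ 3 * cc E) else (h : ℝ) ^ 3 * cc E)) =
      m * (6 * ((h : ℝ) ^ 3 * cc E)) := by
    have h5 : ∀ q ∈ Finset.range m, ((if (4 * q) % 4 = 0 ∨ (4 * q) % 4 = 3 then
        2 * ((h : ℝ) ^ 3 * cc E) else (h : ℝ) ^ 3 * cc E) +
      (if (4 * q + 1) % 4 = 0 ∨ (4 * q + 1) % 4 = 3 then
        2 * ((h : ℝ) ^ 3 * cc E) else (h : ℝ) ^ 3 * cc E) +
      (if (4 * q + 2) % 4 = 0 ∨ (4 * q + 2) % 4 = 3 then
        2 * ((h : ℝ) ^ 3 * cc E) else (h : ℝ) ^ 3 * cc E) +
      (if (4 * q + 3) % 4 = 0 ∨ (4 * q + 3) % 4 = 3 then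
        2 * ((h : ℝ) ^ 3 * cc E) else (h : ℝ) ^ 3 * cc E)) = 6 * ((h : ℝ) ^ 3 * cc E) := by
      intro q _
      rw [if_pos (by omega), if_neg (by omega), if_neg (by omega), if_pos (by omega)]
      ring
    rw [Finset.sum_congr rfl h5, Finset.sum_const, Finset.card_range, nsmul_eq_mul]
  rw [h6]
  have e : (m : ℝ) * (6 * δ₁ h + 6 * ((h : ℝ) ^ 3 * cc E)) =
      m * (6 * δ₁ h) + m * (6 * ((h : ℝ) ^ 3 * cc E)) := by ring
  rw [e]
  linarith

/-- The remaining differences. -/
def df (ω : Wr (Fin h × Bool) (Fin m) → V) (d : Fin m) : Matrix V V ℂ :=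
  (tu ω (y₃ ω (false, true, false) d) (true, false) d -
      tu ω (y₃ ω (false, true, false) d) (false, false) d) +
  (tw ω (y₃ ω (false, false, false) d) (false, false) d -
      tw ω (y₃ ω (false, false, false) d) (false, true) d) +
  (tu ω (y₃ ω (false, true, true) d) (true, true) d -
      tu ω (y₃ ω (false, true, true) d) (false, false) d) +
  (tv ω (y₃ ω (true, false, false) d) (true, false) d -
      tv ω (y₃ ω (true, false, false) d) (false, true) d) +
  (tv ω (y₃ ω (true, false, true) d) (true, true) d -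
      tv ω (y₃ ω (true, false, true) d) (false, true) d) +
  (tw ω (y₃ ω (false, false, true) d) (false, false) d -
      tw ω (y₃ ω (false, false, true) d) (true, false) d)

theorem oneWay_tu_y (hω : Function.Injective ω) (i : Bool × Bool × Bool) (j : Bool × Bool)
    (d e : Fin m) : OneWay (isY ω) (tu ω (y₃ ω i d) j e) :=
  OneWay.tr (y₃_isY i d) fun _ => u₂_not_isY hω _ _ _

theorem oneWay_tv_y (hω : Function.Injective ω) (i : Bool × Bool × Bool) (j : Bool × Bool)
    (d e : Fin m) : OneWay (isY ω) (tv ω (y₃ ω i d) j e) :=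
  OneWay.tr (y₃_isY i d) fun _ => v₂_not_isY hω _ _ _

theorem oneWay_tw_y (hω : Function.Injective ω) (i : Bool × Bool × Bool) (j : Bool × Bool)
    (d e : Fin m) : OneWay (isY ω) (tw ω (y₃ ω i d) j e) :=
  OneWay.tr (y₃_isY i d) fun _ => w₂_not_isY hω _ _ _

theorem oneWay_tx_y (hω : Function.Injective ω) (i j : Bool × Bool × Bool)
    (d : Fin m) : OneWay (isY ω) (tr (y₃ ω i d) (x₃ ω j)) :=
  OneWay.tr (y₃_isY i d) fun _ => x₃_not_isY hω _ _

theorem oneWay_df (hω : Function.Injective ω) (d : Fin m) : OneWay (isY ω) (df ω d) :=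
  ((((((oneWay_tu_y hω _ _ _ _).sub (oneWay_tu_y hω _ _ _ _)).add
    ((oneWay_tw_y hω _ _ _ _).sub (oneWay_tw_y hω _ _ _ _))).add
    ((oneWay_tu_y hω _ _ _ _).sub (oneWay_tu_y hω _ _ _ _))).add
    ((oneWay_tv_y hω _ _ _ _).sub (oneWay_tv_y hω _ _ _ _))).add
    ((oneWay_tv_y hω _ _ _ _).sub (oneWay_tv_y hω _ _ _ _))).add
    ((oneWay_tw_y hω _ _ _ _).sub (oneWay_tw_y hω _ _ _ _))

theorem cc_df (hω : Function.Injective ω) (d : Fin m) : cc (1 + df ω d) ≤ 6 * δ₁ h := by
  have o1 := (oneWay_tu_y hω (false, true, false) (true, false) d d).sub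
    (oneWay_tu_y hω (false, true, false) (false, false) d d)
  have o2 := (oneWay_tw_y hω (false, false, false) (false, false) d d).sub
    (oneWay_tw_y hω (false, false, false) (false, true) d d)
  have o3 := (oneWay_tu_y hω (false, true, true) (true, true) d d).sub
    (oneWay_tu_y hω (false, true, true) (false, false) d d)
  have o4 := (oneWay_tv_y hω (true, false, false) (true, false) d d).sub
    (oneWay_tv_y hω (true, false, false) (false, true) d d)
  have o5 := (oneWay_tv_y hω (true, false, true) (true, true) d d).sub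
    (oneWay_tv_y hω (true, false, true) (false, true) d d)
  have o6 := (oneWay_tw_y hω (false, false, true) (false, false) d d).sub
    (oneWay_tw_y hω (false, false, true) (true, false) d d)
  have a5 := ((((o1.add o2).add o3).add o4).add o5).cc_add o6
  have a4 := (((o1.add o2).add o3).add o4).cc_add o5
  have a3 := ((o1.add o2).add o3).cc_add o4
  have a2 := (o1.add o2).cc_add o3
  have a1 := o1.cc_add o2
  have c1 : _ ≤ δ₁ h := cc_du hω (y₃ ω (false, true, false) d) (y_or _ _)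
    (show ((true, false) : Bool × Bool) ≠ (false, false) by decide) d d
  have c2 : _ ≤ δ₁ h := cc_dw hω (y₃ ω (false, false, false) d) (y_or _ _)
    (show ((false, false) : Bool × Bool) ≠ (false, true) by decide) d d
  have c3 : _ ≤ δ₁ h := cc_du hω (y₃ ω (false, true, true) d) (y_or _ _)
    (show ((true, true) : Bool × Bool) ≠ (false, false) by decide) d d
  have c4 : _ ≤ δ₁ h := cc_dv hω (y₃ ω (true, false, false) d) (y_or _ _)
    (show ((true, false) : Bool × Bool) ≠ (false, true) by decide) d d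
  have c5 : _ ≤ δ₁ h := cc_dv hω (y₃ ω (true, false, true) d) (y_or _ _)
    (show ((true, true) : Bool × Bool) ≠ (false, true) by decide) d d
  have c6 : _ ≤ δ₁ h := cc_dw hω (y₃ ω (false, false, true) d) (y_or _ _)
    (show ((false, false) : Bool × Bool) ≠ (true, false) by decide) d d
  unfold df
  linarith

/-- The static differences. -/
def sd (ω : Wr (Fin h × Bool) (Fin m) → V) (i : Bool × Bool × Bool) : Matrix V V ℂ :=
  ∑ d : Fin m, (tr (y₃ ω i d) (x₃ ω i) - yz ω i d)

theorem oneWay_sd (hω : Function.Injective ω) (i : Bool × Bool × Bool) :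
    OneWay (isY ω) (sd ω i) :=
  OneWay.sum _ _ fun _ => (oneWay_tx_y hω _ _ _).sub (oneWay_yz hω _ _)

theorem cc_sd (hω : Function.Injective ω) {i : Bool × Bool × Bool}
    (hi : i ≠ (false, false, false)) :
    cc (1 + sd ω i) ≤ (m + 2) * ((h : ℝ) ^ 3 * cc E) := by
  have h1 := cc_diff (fun p : T h × Fin m => y₃ ω i p.2 p.1) (x₃ ω i) (zz ω)
    (fun p : T h × Fin m => p.1) (x₃_inj hω i) (fun k k' hk => by cases hω hk)
    (fun k k' hk => by cases hω hk) (x₃_ne hω hi)
  have h2 : tr (fun p : T h × Fin m => y₃ ω i p.2 p.1) (fun p => x₃ ω i p.1) -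
      tr (fun p : T h × Fin m => y₃ ω i p.2 p.1) (fun p => zz ω p.1) = sd ω i := by
    unfold sd tr yz
    rw [Finset.sum_sub_distrib, Fintype.sum_prod_type_right, Fintype.sum_prod_type_right]
    rfl
  rw [h2] at h1
  refine h1.trans (le_of_eq ?_)
  simp only [Fintype.card_prod, Fintype.card_fin]
  push_cast
  ring

/-- All additions to `y_i`. -/
def full (ω : Wr (Fin h × Bool) (Fin m) → V) (i : Bool × Bool × Bool) (d : Fin m) :
    Matrix V V ℂ :=
  tu ω (y₃ ω i d) (i.2.1, i.2.2) d + tv ω (y₃ ω i d) (i.1, i.2.2) d +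
    tw ω (y₃ ω i d) (i.1, i.2.1) d + tr (y₃ ω i d) (x₃ ω i)

theorem oneWay_full (hω : Function.Injective ω) (i : Bool × Bool × Bool) (d : Fin m) :
    OneWay (isY ω) (full ω i d) :=
  (((oneWay_tu_y hω _ _ _ _).add (oneWay_tv_y hω _ _ _ _)).add (oneWay_tw_y hω _ _ _ _)).add
    (oneWay_tx_y hω _ _ _)

theorem cc_full (hω : Function.Injective ω) (i : Bool × Bool × Bool) (d : Fin m) :
    cc (1 + full ω i d) ≤ 4 * ((h : ℝ) ^ 3 * cc E) := by
  have o1 := oneWay_tu_y hω i (i.2.1, i.2.2) d d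
  have o2 := oneWay_tv_y hω i (i.1, i.2.2) d d
  have o3 := oneWay_tw_y hω i (i.1, i.2.1) d d
  have o4 := oneWay_tx_y hω i i d
  have a3 := ((o1.add o2).add o3).cc_add o4
  have a2 := (o1.add o2).cc_add o3
  have a1 := o1.cc_add o2
  have c1 : cc (1 + tu ω (y₃ ω i d) (i.2.1, i.2.2) d) ≤ (h : ℝ) ^ 3 * cc E :=
    cc_plain _ _ fun k k' hk => by cases hω hk
  have c2 : cc (1 + tv ω (y₃ ω i d) (i.1, i.2.2) d) ≤ (h : ℝ) ^ 3 * cc E :=
    cc_plain _ _ fun k k' hk => by cases hω hk
  have c3 : cc (1 + tw ω (y₃ ω i d) (i.1, i.2.1) d) ≤ (h : ℝ) ^ 3 * cc E :=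
    cc_plain _ _ fun k k' hk => by cases hω hk
  have c4 : cc (1 + tr (y₃ ω i d) (x₃ ω i)) ≤ (h : ℝ) ^ 3 * cc E :=
    cc_plain _ _ fun k k' hk => by cases hω hk
  unfold full
  linarith

theorem oneWay_wk (hω : Function.Injective ω) (d : Fin m) : OneWay (isY ω) (wk ω d) := by
  have h1 : ∀ (i : Bool × Bool × Bool) (r : ℕ), OneWay (isY ω) (yz ω i d * pos ω r d) := by
    intro i r
    rcases r with _ | _ | _ | r <;>
      (simp only [pos]
       rw [mul_add, mul_add, yz_mul_tu hω, yz_mul_tv hω, yz_mul_tw hω]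
       exact ((oneWay_tu_y hω _ _ _ _).add (oneWay_tv_y hω _ _ _ _)).add
         (oneWay_tw_y hω _ _ _ _))
  have h2 : ∀ r : ℕ, OneWay (isY ω) (ser ω r d * pos ω r d) := by
    intro r
    rcases r with _ | _ | _ | r
    · simp only [ser]; rw [add_mul]; exact (h1 _ _).add (h1 _ _)
    · exact h1 _ _
    · exact h1 _ _
    · simp only [ser]; rw [add_mul]; exact (h1 _ _).add (h1 _ _)
  exact (((((oneWay_ser hω 0 d).add (h2 0)).add ((oneWay_ser hω 1 d).add (h2 1))).add
    ((oneWay_ser hω 2 d).add (h2 2))).add ((oneWay_ser hω 3 d).add (h2 3)))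

/-- The whole map. -/
def tot (ω : Wr (Fin h × Bool) (Fin m) → V) : Matrix V V ℂ :=
  ∑ d : Fin m, ∑ i : Bool × Bool × Bool, full ω i d

theorem tot_eq (hω : Function.Injective ω) : tot ω =
    ∑ d : Fin m, wk ω d + ∑ d : Fin m, df ω d +
      (sd ω (false, true, false) + sd ω (false, true, true) + sd ω (true, false, false) +
        sd ω (true, false, true) + sd ω (false, false, true)) +
      (∑ d : Fin m, full ω (true, true, false) d + ∑ d : Fin m, full ω (true, true, true) d) := by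
  unfold tot sd
  simp only [← Finset.sum_add_distrib]
  refine Finset.sum_congr rfl fun d _ => ?_
  simp only [Fintype.sum_prod_type, Fintype.sum_bool, wk, ser, pos, mul_add, add_mul,
    yz_mul_tu hω, yz_mul_tv hω, yz_mul_tw hω, df, full]
  have e : tr (y₃ ω (false, false, false) d) (x₃ ω (false, false, false)) =
      yz ω (false, false, false) d := rfl
  rw [e]
  abel

/-- The saving. -/
theorem cc_tot (hω : Function.Injective ω) (hm : 0 < m) :
    cc (1 + tot ω) ≤ ((31 * (h : ℝ) ^ 3 + 24 * (h : ℝ) ^ 2) * m + 16 * (h : ℝ) ^ 3) * cc E := by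
  rw [tot_eq hω]
  have o1 : OneWay (isY ω) (∑ d : Fin m, wk ω d) := OneWay.sum _ _ fun d => oneWay_wk hω d
  have o2 : OneWay (isY ω) (∑ d : Fin m, df ω d) := OneWay.sum _ _ fun d => oneWay_df hω d
  have o3 := oneWay_sd hω (false, true, false)
  have o4 := oneWay_sd hω (false, true, true)
  have o5 := oneWay_sd hω (true, false, false)
  have o6 := oneWay_sd hω (true, false, true)
  have o7 := oneWay_sd hω (false, false, true)
  have o8 : OneWay (isY ω) (∑ d : Fin m, full ω (true, true, false) d) :=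
    OneWay.sum _ _ fun d => oneWay_full hω _ d
  have o9 : OneWay (isY ω) (∑ d : Fin m, full ω (true, true, true) d) :=
    OneWay.sum _ _ fun d => oneWay_full hω _ d
  have a1 := ((o1.add o2).add ((((o3.add o4).add o5).add o6).add o7)).cc_add (o8.add o9)
  have a2 := (o1.add o2).cc_add ((((o3.add o4).add o5).add o6).add o7)
  have a3 := o1.cc_add o2
  have a4 := (((o3.add o4).add o5).add o6).cc_add o7
  have a5 := ((o3.add o4).add o5).cc_add o6
  have a6 := (o3.add o4).cc_add o5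
  have a7 := o3.cc_add o4
  have a8 := o8.cc_add o9
  have c1 := cc_wk hω hm
  have c2 : cc (1 + ∑ d : Fin m, df ω d) ≤ m * (6 * δ₁ h) := by
    have := OneWay.cc_sum Finset.univ (df ω) (oneWay_df hω) (cc_df hω)
    rwa [Finset.card_univ, Fintype.card_fin] at this
  have c3 := cc_sd hω (i := (false, true, false)) (by decide)
  have c4 := cc_sd hω (i := (false, true, true)) (by decide)
  have c5 := cc_sd hω (i := (true, false, false)) (by decide)
  have c6 := cc_sd hω (i := (true, false, true)) (by decide)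
  have c7 := cc_sd hω (i := (false, false, true)) (by decide)
  have c8 : cc (1 + ∑ d : Fin m, full ω (true, true, false) d) ≤
      m * (4 * ((h : ℝ) ^ 3 * cc E)) := by
    have := OneWay.cc_sum Finset.univ (full ω (true, true, false)) (oneWay_full hω _)
      (cc_full hω _)
    rwa [Finset.card_univ, Fintype.card_fin] at this
  have c9 : cc (1 + ∑ d : Fin m, full ω (true, true, true) d) ≤
      m * (4 * ((h : ℝ) ^ 3 * cc E)) := by
    have := OneWay.cc_sum Finset.univ (full ω (true, true, true)) (oneWay_full hω _)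
      (cc_full hω _)
    rwa [Finset.card_univ, Fintype.card_fin] at this
  have e : ((31 * (h : ℝ) ^ 3 + 24 * (h : ℝ) ^ 2) * m + 16 * (h : ℝ) ^ 3) * cc E =
      (6 * ((h : ℝ) ^ 3 * cc E) + m * (6 * δ₁ h + 6 * ((h : ℝ) ^ 3 * cc E))) +
      m * (6 * δ₁ h) + 5 * ((m + 2) * ((h : ℝ) ^ 3 * cc E)) +
      2 * (m * (4 * ((h : ℝ) ^ 3 * cc E))) := by
    unfold δ₁
    ring
  rw [e]
  linarith

end total

end Vale.Agent.P344.R2.H288
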