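import Vale.Agent.P344.R2.H715.Fun3

/-!
# Batches of transvections
-/

set_option linter.unusedSectionVars false

namespace Vale.Agent.P344.R2.H288

open Matrix Vale.Agent.P344.R2.H715

section cost

variable {ι : Type} [Fintype ι] [DecidableEq ι] [Nonempty ι]

theorem cc_E_nonneg : 0 ≤ cc E := cc_nonneg E

/-- A single transvection costs at most as much as `E`. -/
theorem cc_slide {S : Matrix ι ι ℂ} (h : Slide S) : cc S ≤ cc E := by
  obtain ⟨k, hk, α, β, i1, i2, i3, i4, e, hα, rfl⟩ := h
  haveI : Nonempty ((α × Bool) ⊕ β) := e.symm.nonempty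
  have h1 : Eqv ((core α β).submatrix e e) (core α β) := ⟨e, rfl⟩
  rw [h1.cc]
  rcases Nat.eq_zero_or_pos k with h0 | h0
  · subst h0
    haveI : IsEmpty α := Fintype.card_eq_zero_iff.1 hα
    have h2 : core α β = 1 := by
      ext (⟨a, _⟩ | i) (⟨a', _⟩ | j)
      · exact isEmptyElim a
      · exact isEmptyElim a
      · exact isEmptyElim a'
      · simp [core, Matrix.one_apply]
    rw [h2, cc_mono IsMono.one]
    exact cc_E_nonneg
  · have h3 : Fintype.card α = 1 := by omega
    haveI : Nonempty α := Fintype.card_pos_iff.1 (by omega)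
    unfold core
    rw [cc_sum_one, cc_tensor_one, h3, Nat.cast_one, one_mul]

theorem cc_word {r : ℕ} {M : Matrix ι ι ℂ} (h : Word Slide r M) : cc M ≤ r * cc E := by
  induction h with
  | mono hQ => rw [cc_mono hQ]; simp
  | @step r Q S M hQ hS _ ih =>
    refine (cc_mul_le _ _).trans ?_
    have h1 := cc_mul_le Q S
    rw [cc_mono hQ] at h1
    have h2 := cc_slide hS
    push_cast
    linarith

theorem cc_transvection {i j : ι} (hij : i ≠ j) (c : ℂ) : cc (1 + Matrix.single i j c) ≤ cc E := by
  have h1 := cc_word (word_transvection hij c)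
  simpa [transvection] using h1

end cost

section tr

variable {V K K' : Type} [Fintype V] [DecidableEq V] [Fintype K] [Fintype K']

/-- `x (t k) += x (s k)` for all `k`: this is `1 + tr t s`. -/
def tr (t s : K → V) : Matrix V V ℂ := ∑ k, Matrix.single (t k) (s k) 1

theorem tr_mul_eq_zero (t s : K → V) (t' s' : K' → V) (h : ∀ k k', s k ≠ t' k') :
    tr t s * tr t' s' = 0 := by
  unfold tr
  rw [Finset.sum_mul_sum]
  refine Finset.sum_eq_zero fun k _ => Finset.sum_eq_zero fun k' _ => ?_
  exact Matrix.single_mul_single_of_ne _ _ _ _ (h k k') _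

theorem tr_mul_tr (t : K → V) (s : K' → V) (p : K → K') (s' : K' → V)
    (hs : Function.Injective s) : tr t (fun k => s (p k)) * tr s s' = tr t fun k => s' (p k) := by
  unfold tr
  rw [Finset.sum_mul_sum]
  refine Finset.sum_congr rfl fun k _ => ?_
  rw [Finset.sum_eq_single (p k)]
  · rw [Matrix.single_mul_single_same, one_mul]
  · intro k' _ hk'
    exact Matrix.single_mul_single_of_ne _ _ _ _ (fun h => hk' (hs h).symm) _
  · intro h
    exact absurd (Finset.mem_univ _) h

variable [Nonempty V]

theorem cc_tr (t s : K → V) (h : ∀ k k', t k ≠ s k') :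
    cc (1 + tr t s) ≤ Fintype.card K * cc E := by
  classical
  have key : ∀ S : Finset K, cc (1 + ∑ k ∈ S, Matrix.single (t k) (s k) (1 : ℂ)) ≤
      S.card * cc E := by
    intro S
    induction S using Finset.induction_on with
    | empty => simp [cc_mono (IsMono.one (ι := V))]
    | insert a S ha ih =>
      have h1 : (1 + ∑ k ∈ insert a S, Matrix.single (t k) (s k) (1 : ℂ)) =
          (1 + Matrix.single (t a) (s a) (1 : ℂ)) *
            (1 + ∑ k ∈ S, Matrix.single (t k) (s k) (1 : ℂ)) := by
        have h2 : Matrix.single (t a) (s a) (1 : ℂ) *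
            ∑ k ∈ S, Matrix.single (t k) (s k) (1 : ℂ) = 0 := by
          rw [Finset.mul_sum]
          refine Finset.sum_eq_zero fun k _ => ?_
          exact Matrix.single_mul_single_of_ne _ _ _ _ (Ne.symm (h k a)) _
        rw [Finset.sum_insert ha, mul_add, add_mul, add_mul, h2]
        simp only [Matrix.one_mul, Matrix.mul_one, add_zero]
        abel
      rw [h1, Finset.card_insert_of_notMem ha]
      refine (cc_mul_le _ _).trans ?_
      have := cc_transvection (h a a) 1
      push_cast
      linarith
  exact key Finset.univ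

theorem cc_sub_tr (t s : K → V) (h : ∀ k k', t k ≠ s k') :
    cc (1 - tr t s) ≤ Fintype.card K * cc E := by
  classical
  have key : ∀ S : Finset K, cc (1 - ∑ k ∈ S, Matrix.single (t k) (s k) (1 : ℂ)) ≤
      S.card * cc E := by
    intro S
    induction S using Finset.induction_on with
    | empty => simp [cc_mono (IsMono.one (ι := V))]
    | insert a S ha ih =>
      have h1 : (1 - ∑ k ∈ insert a S, Matrix.single (t k) (s k) (1 : ℂ)) =
          (1 + Matrix.single (t a) (s a) (-1 : ℂ)) *
            (1 - ∑ k ∈ S, Matrix.single (t k) (s k) (1 : ℂ)) := by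
        have h2 : Matrix.single (t a) (s a) (-1 : ℂ) *
            ∑ k ∈ S, Matrix.single (t k) (s k) (1 : ℂ) = 0 := by
          rw [Finset.mul_sum]
          refine Finset.sum_eq_zero fun k _ => ?_
          exact Matrix.single_mul_single_of_ne _ _ _ _ (Ne.symm (h k a)) _
        have h3 : Matrix.single (t a) (s a) (-1 : ℂ) = - Matrix.single (t a) (s a) (1 : ℂ) := by
          ext i j
          simp only [Matrix.single_apply, Matrix.neg_apply]
          split_ifs <;> simp
        rw [Finset.sum_insert ha, mul_sub, add_mul, add_mul, h2, h3]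
        simp only [Matrix.one_mul, Matrix.mul_one, sub_zero]
        abel
      rw [h1, Finset.card_insert_of_notMem ha]
      refine (cc_mul_le _ _).trans ?_
      have := cc_transvection (h a a) (-1)
      push_cast
      linarith
  exact key Finset.univ

/-- A batch of differences: `x (t k) += x (f (p k)) - x (g (p k))` costs hardly more than one
addition for each `k`. -/
theorem cc_diff (t : K → V) (f g : K' → V) (p : K → K') (hf : Function.Injective f)
    (htf : ∀ k k', t k ≠ f k') (htg : ∀ k k', t k ≠ g k') (hfg : ∀ k k', f k ≠ g k') :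
    cc (1 + (tr t (fun k => f (p k)) - tr t fun k => g (p k))) ≤
      (Fintype.card K + 2 * Fintype.card K') * cc E := by
  have h1 : 1 + (tr t (fun k => f (p k)) - tr t fun k => g (p k)) =
      (1 + tr f g) * (1 + tr t fun k => f (p k)) * (1 - tr f g) := by
    have e1 : tr f g * (tr t fun k => f (p k)) = 0 :=
      tr_mul_eq_zero _ _ _ _ fun k k' => (htg k' k).symm
    have e2 : (tr t fun k => f (p k)) * tr f g = tr t fun k => g (p k) :=
      tr_mul_tr t f p g hf
    have e3 : tr f g * tr f g = 0 := tr_mul_eq_zero _ _ _ _ fun k k' => (hfg k' k).symm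
    have e4 : (1 + tr f g) * (1 + tr t fun k => f (p k)) = 1 + tr f g + tr t fun k => f (p k) := by
      rw [mul_add, mul_one, add_mul, one_mul, e1, add_zero]
    rw [e4, mul_sub, mul_one, add_mul, add_mul, one_mul, e2, e3]
    abel
  rw [h1]
  refine (cc_mul_le _ _).trans ?_
  have h2 := cc_mul_le (1 + tr f g) (1 + tr t fun k => f (p k))
  have h3 := cc_tr f g hfg
  have h4 := cc_tr t (fun k => f (p k)) fun k k' => htf k (p k')
  have h5 := cc_sub_tr f g hfg
  linarith

end tr

/-! ### Walkers -/

section walk

variable {V : Type} [Fintype V] [DecidableEq V] [Nonempty V]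

/-- The walker lemma. -/
theorem walk (P R : ℕ → Matrix V V ℂ) (hPP : ∀ i j, P i * P j = 0) (hRR : ∀ i j, R i * R j = 0)
    (hPR : ∀ i j, P i * R j = 0) (a b : ℕ → ℝ) (a0 : ℝ) (ha0 : cc (1 + P 0) ≤ a0)
    (ha : ∀ k, cc (1 + (P (k + 1) - P k)) ≤ a k) (hb : ∀ k, cc (1 + R k) ≤ b k)
    (M : ℕ) (z : ℝ) (hz : cc (1 - P M) ≤ z) :
    cc (1 + ∑ k ∈ Finset.range (M + 1), (R k + R k * P k)) ≤
      z + a0 + ∑ k ∈ Finset.range M, a k + ∑ k ∈ Finset.range (M + 1), b k := by
  have key : ∀ M : ℕ, cc ((1 + P M) * (1 + ∑ k ∈ Finset.range (M + 1), (R k + R k * P k))) ≤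
      a0 + ∑ k ∈ Finset.range M, a k + ∑ k ∈ Finset.range (M + 1), b k := by
    intro M
    induction M with
    | zero =>
      have h1 : (1 + P 0) * (1 + ∑ k ∈ Finset.range (0 + 1), (R k + R k * P k)) =
          (1 + R 0) * (1 + P 0) := by
        have e1 : P 0 * (R 0 + R 0 * P 0) = 0 := by
          rw [mul_add, ← Matrix.mul_assoc, hPR, Matrix.zero_mul, add_zero]
        rw [Finset.sum_range_one, add_mul, one_mul, mul_add (P 0), mul_one, e1, add_mul, one_mul,
          mul_add (R 0), mul_one]
        abel
      rw [h1]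
      refine (cc_mul_le _ _).trans ?_
      have := hb 0
      simp
      linarith
    | succ M ih =>
      set T := ∑ k ∈ Finset.range (M + 1), (R k + R k * P k) with hT
      have hRT : R (M + 1) * T = 0 := by
        rw [hT, Finset.mul_sum]
        refine Finset.sum_eq_zero fun k _ => ?_
        rw [mul_add, ← Matrix.mul_assoc, hRR, Matrix.zero_mul, add_zero]
      have hPT : P (M + 1) * T = 0 := by
        rw [hT, Finset.mul_sum]
        refine Finset.sum_eq_zero fun k _ => ?_
        rw [mul_add, ← Matrix.mul_assoc, hPR, Matrix.zero_mul, add_zero]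
      have hPT' : P M * T = 0 := by
        rw [hT, Finset.mul_sum]
        refine Finset.sum_eq_zero fun k _ => ?_
        rw [mul_add, ← Matrix.mul_assoc, hPR, Matrix.zero_mul, add_zero]
      have h1 : (1 + P (M + 1)) * (1 + ∑ k ∈ Finset.range (M + 1 + 1), (R k + R k * P k)) =
          ((1 + R (M + 1)) * (1 + (P (M + 1) - P M))) * ((1 + P M) * (1 + T)) := by
        have e1 : (1 + P M) * (1 + T) = 1 + P M + T := by
          rw [mul_add, mul_one, add_mul, one_mul, hPT', add_zero]
        have e2 : (1 + (P (M + 1) - P M)) * (1 + P M + T) = 1 + P (M + 1) + T := by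
          rw [add_mul, one_mul, sub_mul, mul_add, mul_add, mul_one, hPP, hPT, mul_add, mul_add,
            mul_one, hPP, hPT']
          abel
        have e3 : (1 + R (M + 1)) * (1 + P (M + 1) + T) =
            1 + P (M + 1) + T + R (M + 1) + R (M + 1) * P (M + 1) := by
          rw [add_mul, one_mul, mul_add, mul_add, mul_one, hRT]
          abel
        have e4 : (1 + P (M + 1)) * (1 + (T + (R (M + 1) + R (M + 1) * P (M + 1)))) =
            1 + P (M + 1) + T + R (M + 1) + R (M + 1) * P (M + 1) := by
          rw [add_mul, one_mul, mul_add, mul_one, mul_add, mul_add, hPT, ← Matrix.mul_assoc, hPR,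
            Matrix.zero_mul]
          abel
        rw [Finset.sum_range_succ, ← hT, e4, Matrix.mul_assoc, e1, e2, e3]
      rw [h1]
      refine (cc_mul_le _ _).trans ?_
      have h2 := cc_mul_le (1 + R (M + 1)) (1 + (P (M + 1) - P M))
      have h3 := ha M
      have h4 := hb (M + 1)
      rw [Finset.sum_range_succ _ M, Finset.sum_range_succ _ (M + 1)]
      linarith
  have h1 : (1 + ∑ k ∈ Finset.range (M + 1), (R k + R k * P k)) =
      (1 - P M) * ((1 + P M) * (1 + ∑ k ∈ Finset.range (M + 1), (R k + R k * P k))) := by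
    rw [← Matrix.mul_assoc, sub_mul 1, one_mul, mul_add (P M), mul_one, hPP]
    simp
  rw [h1]
  refine (cc_mul_le _ _).trans ?_
  have := key M
  linarith

end walk

end Vale.Agent.P344.R2.H288
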